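import Vale.Agent.P011.E6.Defs

/-!
Change of the quaternion subalgebra: the plane `K j` is replaced by another line over `K` in
`K j + K (j l)`, in the coordinates given by a square root of `a`.
-/

namespace Vale.Agent.P011.E6O

open Vale.Agent.P011.MPQ Vale.Agent.P011.D4 Vale.Agent.P011.D4.Oct Vale.Agent.P011.E6

section base

variable {F : Type} [Field F] {a b c : Fˣ}

/-- The new generator `j'`. -/
def rj (a b c : Fˣ) (u0 u1 v0 v1 : F) : Oct a b c := ⟨⟨0, 0, u0, u1⟩, ⟨0, 0, v0, v1⟩⟩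

theorem trip_rj {u0 u1 v0 v1 : F} {b' : Fˣ}
    (hb : (b' : F) = b * (u0 ^ 2 - a * u1 ^ 2 - c * (v0 ^ 2 - a * v1 ^ 2))) :
    Trip a b' c (gi : Oct a b c) (rj a b c u0 u1 v0 v1) gl where
  si := by
    apply Oct.ext <;> ext <;> simp [gi]
  sj := by
    apply Oct.ext <;> ext <;> simp [rj]
  sl := by
    apply Oct.ext <;> ext <;> simp [gl]
  ii := by
    apply Oct.ext <;> ext <;> simp [gi]
  jj := by
    apply Oct.ext <;> ext <;> simp [rj, hb] <;> ring
  ll := by
    apply Oct.ext <;> ext <;> simp [gl]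
  ij := by simp [dot, gi, rj]
  il := by simp [dot, gi, gl]
  jl := by simp [dot, gl, rj]
  ijl := by simp [dot, gi, gl, rj]

theorem norm_ne {u0 u1 v0 v1 : F} (hdiv : Division a b c)
    (h : ¬ (u0 = 0 ∧ u1 = 0 ∧ v0 = 0 ∧ v1 = 0)) :
    (b : F) * (u0 ^ 2 - a * u1 ^ 2 - c * (v0 ^ 2 - a * v1 ^ 2)) ≠ 0 := by
  intro h0
  apply h
  have h1 := (mul_eq_zero.1 h0).resolve_left b.ne_zero
  have h2 := hdiv ⟨⟨u0, u1, 0, 0⟩, ⟨v0, v1, 0, 0⟩⟩ (by
    simp only [Oct.norm, nrd]
    linear_combination h1)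
  have h3 := congrArg Oct.fst h2
  have h4 := congrArg Oct.snd h2
  have e1 := congrArg QuaternionAlgebra.re h3
  have e2 := congrArg QuaternionAlgebra.imI h3
  have e3 := congrArg QuaternionAlgebra.re h4
  have e4 := congrArg QuaternionAlgebra.imI h4
  exact ⟨e1, e2, e3, e4⟩

theorem emb_rj_fst {b' : Fˣ} (u0 u1 v0 v1 : F) (y : Oct a b' c) :
    (emb (gi : Oct a b c) (rj a b c u0 u1 v0 v1) gl y).fst =
      ⟨y.fst.re, y.fst.imI,
        u0 * y.fst.imJ + a * u1 * y.fst.imK + c * (v0 * y.snd.imJ - a * v1 * y.snd.imK),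
        u1 * y.fst.imJ + u0 * y.fst.imK + c * (v1 * y.snd.imJ - v0 * y.snd.imK)⟩ := by
  ext <;> simp [emb, qemb, gi, gl, rj] <;> ring

theorem emb_rj_snd {b' : Fˣ} (u0 u1 v0 v1 : F) (y : Oct a b' c) :
    (emb (gi : Oct a b c) (rj a b c u0 u1 v0 v1) gl y).snd =
      ⟨y.snd.re, y.snd.imI,
        v0 * y.fst.imJ - a * v1 * y.fst.imK + (u0 * y.snd.imJ + a * u1 * y.snd.imK),
        v1 * y.fst.imJ - v0 * y.fst.imK + (u1 * y.snd.imJ + u0 * y.snd.imK)⟩ := by
  ext <;> simp [emb, qemb, gi, gl, rj] <;> ring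

end base

section ext

variable {k E : Type} [Field k] [Field E] [Algebra k E] {a b b' c : kˣ} {al : E}

theorem oup_rj (u0 u1 v0 v1 : k) : oup E (rj a b c u0 u1 v0 v1) =
    rj (up E a) (up E b) (up E c) (algebraMap k E u0) (algebraMap k E u1) (algebraMap k E v0)
      (algebraMap k E v1) := by
  simp only [oup, qup, rj, map_zero]

theorem oup_gi : oup E (gi : Oct a b c) = (gi : OctL E a b c) := by
  apply Oct.ext <;> ext <;> simp [gi, oup, qup]

theorem oup_gl : oup E (gl : Oct a b c) = (gl : OctL E a b c) := by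
  apply Oct.ext <;> ext <;> simp [gl, oup, qup]

/-- The coordinates after the change of `j`: on each octonion. -/
theorem rot_oct (hal : al ^ 2 = algebraMap k E a) (u0 u1 v0 v1 : k) (y : OctL E a b' c)
    {Y : OctL E a b c}
    (hY : Y = emb (oup E gi) (oup E (rj a b c u0 u1 v0 v1)) (oup E gl) y) :
    Y.fst.re = y.fst.re ∧ Y.fst.imI = y.fst.imI ∧ Y.snd.re = y.snd.re ∧ Y.snd.imI = y.snd.imI ∧
      Y.fst.imJ + al * Y.fst.imK =
        (algebraMap k E u0 + al * algebraMap k E u1) * (y.fst.imJ + al * y.fst.imK) +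
          algebraMap k E c * (algebraMap k E v0 + al * algebraMap k E v1) *
            (y.snd.imJ - al * y.snd.imK) ∧
      Y.snd.imJ - al * Y.snd.imK =
        (algebraMap k E v0 - al * algebraMap k E v1) * (y.fst.imJ + al * y.fst.imK) +
          (algebraMap k E u0 - al * algebraMap k E u1) * (y.snd.imJ - al * y.snd.imK) ∧
      Y.fst.imJ - al * Y.fst.imK =
        (algebraMap k E u0 - al * algebraMap k E u1) * (y.fst.imJ - al * y.fst.imK) +
          algebraMap k E c * (algebraMap k E v0 - al * algebraMap k E v1) *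
            (y.snd.imJ + al * y.snd.imK) ∧
      Y.snd.imJ + al * Y.snd.imK =
        (algebraMap k E v0 + al * algebraMap k E v1) * (y.fst.imJ - al * y.fst.imK) +
          (algebraMap k E u0 + al * algebraMap k E u1) * (y.snd.imJ + al * y.snd.imK) := by
  have hal' : al ^ 2 = ((up E a : Eˣ) : E) := hal
  have hc : algebraMap k E c = ((up E c : Eˣ) : E) := rfl
  have h1 : Y.fst = _ := (congrArg Oct.fst (hY.trans (by rw [oup_rj, oup_gi, oup_gl]))).trans
    (emb_rj_fst _ _ _ _ y)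
  have h2 : Y.snd = _ := (congrArg Oct.snd (hY.trans (by rw [oup_rj, oup_gi, oup_gl]))).trans
    (emb_rj_snd _ _ _ _ y)
  rw [h1, h2, hc]
  dsimp only
  refine ⟨rfl, rfl, rfl, rfl, ?_, ?_, ?_, ?_⟩
  · linear_combination (-(algebraMap k E u1 * y.fst.imK) + ((up E c : Eˣ) : E) *
      algebraMap k E v1 * y.snd.imK) * hal'
  · linear_combination (algebraMap k E v1 * y.fst.imK - algebraMap k E u1 * y.snd.imK) * hal'
  · linear_combination (-(algebraMap k E u1 * y.fst.imK) + ((up E c : Eˣ) : E) *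
      algebraMap k E v1 * y.snd.imK) * hal'
  · linear_combination (algebraMap k E v1 * y.fst.imK - algebraMap k E u1 * y.snd.imK) * hal'

/-- The row ROT: the triple. -/
theorem exists_rot (hdiv : Division a b c) (u0 u1 v0 v1 : k)
    (h : ¬ (u0 = 0 ∧ u1 = 0 ∧ v0 = 0 ∧ v1 = 0)) :
    ∃ b' : kˣ, (b' : k) = b * (u0 ^ 2 - a * u1 ^ 2 - c * (v0 ^ 2 - a * v1 ^ 2)) ∧
      Trip a b' c (gi : Oct a b c) (rj a b c u0 u1 v0 v1) gl :=
  ⟨Units.mk0 _ (norm_ne hdiv h), rfl, trip_rj rfl⟩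

/-- The coordinates after the change of `j`. -/
theorem rot_coord (hal : al ^ 2 = algebraMap k E a) (u0 u1 v0 v1 : k) (x : AlbL E a b' c)
    {X : AlbL E a b c}
    (hX : X = Alb.omapA (emb (oup E gi) (oup E (rj a b c u0 u1 v0 v1)) (oup E gl)) x)
    {Y : OctL E a b c} {y : OctL E a b' c}
    (hY : (Y = X.x1 ∧ y = x.x1) ∨ (Y = X.x2 ∧ y = x.x2) ∨ (Y = X.x3 ∧ y = x.x3)) :
    (X.d1 = x.d1 ∧ X.d2 = x.d2 ∧ X.d3 = x.d3) ∧
    Y.fst.re = y.fst.re ∧ Y.fst.imI = y.fst.imI ∧ Y.snd.re = y.snd.re ∧ Y.snd.imI = y.snd.imI ∧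
      Y.fst.imJ + al * Y.fst.imK =
        (algebraMap k E u0 + al * algebraMap k E u1) * (y.fst.imJ + al * y.fst.imK) +
          algebraMap k E c * (algebraMap k E v0 + al * algebraMap k E v1) *
            (y.snd.imJ - al * y.snd.imK) ∧
      Y.snd.imJ - al * Y.snd.imK =
        (algebraMap k E v0 - al * algebraMap k E v1) * (y.fst.imJ + al * y.fst.imK) +
          (algebraMap k E u0 - al * algebraMap k E u1) * (y.snd.imJ - al * y.snd.imK) ∧
      Y.fst.imJ - al * Y.fst.imK =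
        (algebraMap k E u0 - al * algebraMap k E u1) * (y.fst.imJ - al * y.fst.imK) +
          algebraMap k E c * (algebraMap k E v0 - al * algebraMap k E v1) *
            (y.snd.imJ + al * y.snd.imK) ∧
      Y.snd.imJ + al * Y.snd.imK =
        (algebraMap k E v0 + al * algebraMap k E v1) * (y.fst.imJ - al * y.fst.imK) +
          (algebraMap k E u0 + al * algebraMap k E u1) * (y.snd.imJ + al * y.snd.imK) := by
  refine ⟨by rw [hX]; exact ⟨rfl, rfl, rfl⟩, rot_oct hal u0 u1 v0 v1 y ?_⟩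
  rcases hY with ⟨h1, h2⟩ | ⟨h1, h2⟩ | ⟨h1, h2⟩ <;> rw [h1, h2, hX] <;> rfl

end ext

end Vale.Agent.P011.E6O
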