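import Vale.Agent.P011.E6O.Defs2
import Vale.Agent.P011.E6.Coord

/-!
The automorphism `i ↦ -i` exchanges the two lines: the row `Tm` follows from the row `T`.
-/

namespace Vale.Agent.P011.E6O

open Vale.Agent.P011.MPQ Vale.Agent.P011.D4 Vale.Agent.P011.D4.Oct Vale.Agent.P011.E6

section base

variable {F : Type} [Field F] {a b c : Fˣ}

/-- The automorphism `i ↦ -i`, `j ↦ j` of the quaternions. -/
def qi (q : Qt a b) : Qt a b := ⟨q.re, -q.imI, q.imJ, -q.imK⟩

theorem qi_mul (x y : Qt a b) : qi (x * y) = qi x * qi y := by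
  ext <;> simp [qi] <;> ring

theorem qi_qi (x : Qt a b) : qi (qi x) = x := by
  ext <;> simp [qi]

theorem qi_star (x : Qt a b) : qi (star x) = star (qi x) := by
  ext <;> simp [qi]

theorem qi_add (x y : Qt a b) : qi (x + y) = qi x + qi y := by
  ext <;> simp [qi] <;> ring

theorem qi_smul (t : F) (x : Qt a b) : qi (t • x) = t • qi x := by
  ext <;> simp [qi]

theorem qi_zero : qi (0 : Qt a b) = 0 := by
  ext <;> simp [qi]

variable (a b c) in
/-- The automorphism `i ↦ -i`, `j ↦ j`, `l ↦ l` of the octonions. -/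
def oi : Oct a b c ≃ₗ[F] Oct a b c where
  toFun x := ⟨qi x.fst, qi x.snd⟩
  invFun x := ⟨qi x.fst, qi x.snd⟩
  left_inv x := by
    apply Oct.ext <;> exact qi_qi _
  right_inv x := by
    apply Oct.ext <;> exact qi_qi _
  map_add' x y := by
    apply Oct.ext <;> exact qi_add _ _
  map_smul' t x := by
    apply Oct.ext <;> exact qi_smul _ _

theorem oi_apply (x : Oct a b c) : oi a b c x = ⟨qi x.fst, qi x.snd⟩ := rfl

theorem oi_oi (x : Oct a b c) : oi a b c (oi a b c x) = x := (oi a b c).left_inv x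

theorem oi_mul (x y : Oct a b c) : oi a b c (x * y) = oi a b c x * oi a b c y := by
  apply Oct.ext
  · simp only [oi_apply, fst_mul, qi_add, qi_mul, qi_smul, qi_star]
  · simp only [oi_apply, snd_mul, qi_add, qi_mul, qi_star]

theorem oi_star (x : Oct a b c) : oi a b c (star x) = star (oi a b c x) := by
  apply Oct.ext
  · simp only [oi_apply, fst_star, qi_star]
  · have h : qi (-x.snd) = -qi x.snd := by
      ext <;> simp [qi]
    simp only [oi_apply, snd_star, h]

variable (a b c) in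
/-- The automorphism, as an element of the group. -/
def autI : AutC a b c := ⟨oi a b c, oi_mul⟩

theorem Perp.oi {w : Oct a b c} (h : Perp w) : Perp (oi a b c w) where
  ne h0 := h.ne (by rw [← oi_oi w, h0, map_zero])
  tr := by rw [← oi_star, h.tr, map_neg]
  i := by
    have h1 := h.i
    simp only [dot, gi, fst_mul, fst_star, snd_star, oi_apply, qi] at h1 ⊢
    simpa using h1

end base

section ext

variable {k E : Type} [Field k] [Field E] [Algebra k E] {a b c : kˣ} {al : E}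

theorem oi_oup (x : Oct a b c) : oi (up E a) (up E b) (up E c) (oup E x) = oup E (oi a b c x) := by
  simp only [oi_apply, oup, qup, qi, map_neg]

theorem oi_omap (ρ : E ≃ₐ[k] E) (x : OctL E a b c) :
    oi (up E a) (up E b) (up E c) (omap ρ x) = omap ρ (oi (up E a) (up E b) (up E c) x) := by
  simp only [oi_apply, omap, qmap, qi, map_neg]

variable (E a b c) in
/-- The automorphism on hermitian matrices. -/
def ai : AlbL E a b c ≃ₗ[E] AlbL E a b c := Alb.mapE (oi (up E a) (up E b) (up E c))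

theorem ai_apply (x : AlbL E a b c) : ai E a b c x =
    ⟨x.d1, x.d2, x.d3, oi _ _ _ x.x1, oi _ _ _ x.x2, oi _ _ _ x.x3⟩ := rfl

theorem ai_ai (x : AlbL E a b c) : ai E a b c (ai E a b c x) = x := by
  simp only [ai_apply, oi_oi]

theorem ai_aup (x : Alb a b c) :
    ai E a b c (aup E x) = aup E (Alb.omapA (autI a b c).1 x) := by
  rw [ai_apply]
  change (⟨_, _, _, oi _ _ _ (oup E x.x1), oi _ _ _ (oup E x.x2), oi _ _ _ (oup E x.x3)⟩ :
    AlbL E a b c) = _
  rw [oi_oup, oi_oup, oi_oup]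
  rfl

theorem ai_ph (ρ : E ≃ₐ[k] E) (lam : Eˣ) (x : AlbL E a b c) :
    ai E a b c (ph ρ lam x) = ph ρ lam (ai E a b c x) := by
  simp only [ai_apply, ph, oi_omap, map_smul]

theorem ai_adj (x : AlbL E a b c) : Alb.adj (ai E a b c x) = ai E a b c (Alb.adj x) := by
  simp only [ai_apply, Alb.adj, map_sub, map_smul, oi_star, oi_mul]
  rw [hom_norm oi_mul, hom_norm oi_mul, hom_norm oi_mul]

theorem ai_isPt {ρ : E ≃ₐ[k] E} {lam : Eˣ} {A : Submodule E (AlbL E a b c)} (h : IsPt ρ lam A) :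
    IsPt ρ lam (A.map (ai E a b c : AlbL E a b c →ₗ[E] AlbL E a b c)) where
  dim := by rw [LinearEquiv.finrank_map_eq, h.dim]
  ph := by
    rintro _ ⟨x, hx, rfl⟩
    exact ⟨_, h.ph x hx, ai_ph ρ lam x⟩
  adj := by
    rintro _ ⟨x, hx, rfl⟩
    change Alb.adj (ai E a b c x) = 0
    rw [ai_adj, h.adj x hx, map_zero]

theorem qi_ep : qi (ep al : Qt (up E a) (up E b)) = em al := by
  simp only [qi, ep, em, neg_zero]

theorem qi_em : qi (em al : Qt (up E a) (up E b)) = ep al := by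
  simp only [qi, ep, em, neg_zero, neg_neg]

theorem ai_Iln {A : Submodule E (AlbL E a b c)} (h : A ≤ Iln c (em al)) :
    A.map (ai E a b c : AlbL E a b c →ₗ[E] AlbL E a b c) ≤ Iln c (ep al) := by
  rintro _ ⟨x, hx, rfl⟩
  obtain ⟨q, rfl⟩ := h hx
  refine ⟨fun i => qi (q i), ?_⟩
  change ai E a b c _ = _
  simp only [ai_apply, oi_apply, qi_zero, qi_mul, qi_em]

theorem ai_Apt (x : OctL E a b c) :
    (Apt x).map (ai E a b c : AlbL E a b c →ₗ[E] AlbL E a b c) = Apt (oi _ _ _ x) := by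
  apply le_antisymm
  · rintro _ ⟨y, ⟨r, rfl⟩, rfl⟩
    refine ⟨r, ?_⟩
    change ai E a b c _ = _
    simp only [ai_apply, map_smul]
  · rintro _ ⟨r, rfl⟩
    refine ⟨⟨0, 0, 0, r 0 • x, r 1 • x, r 2 • x⟩, ⟨r, rfl⟩, ?_⟩
    change ai E a b c _ = _
    simp only [ai_apply, map_smul]

theorem ai_Pw (w : Oct a b c) :
    (Pw al w).map (ai E a b c : AlbL E a b c →ₗ[E] AlbL E a b c) = Pm al (oi a b c w) := by
  rw [Pw, ai_Apt, oi_mul, oi_oup]
  rw [Pm]
  congr 2
  apply Oct.ext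
  · exact qi_ep
  · exact qi_zero

/-- The row `Tm` from the row `T`. -/
theorem Tm_of {ρ : E ≃ₐ[k] E} {lam : Eˣ} {R : Subgroup (AlbL E a b c ≃ₗ[E] AlbL E a b c)}
    (hR : ai E a b c ∈ R)
    (T : ∀ A : Submodule E (AlbL E a b c), IsPt ρ lam A → A ≤ Iln c (ep al) →
      ∃ n ∈ R, ∃ w : Oct a b c, Perp w ∧
        A.map (n : AlbL E a b c →ₗ[E] AlbL E a b c) = Pw al w)
    {A : Submodule E (AlbL E a b c)} (hA : IsPt ρ lam A) (hI : A ≤ Iln c (em al)) :
    ∃ n ∈ R, ∃ w : Oct a b c, Perp w ∧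
      A.map (n : AlbL E a b c →ₗ[E] AlbL E a b c) = Pm al w := by
  obtain ⟨n, hn, w, hw, h⟩ := T _ (ai_isPt hA) (ai_Iln hI)
  refine ⟨ai E a b c * n * ai E a b c, R.mul_mem (R.mul_mem hR hn) hR, _, hw.oi, ?_⟩
  rw [← ai_Pw, ← h, ← Submodule.map_comp, ← Submodule.map_comp]
  rfl

end ext

end Vale.Agent.P011.E6O
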