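import Vale.Agent.P011.E6O.H370.T3
import Vale.Agent.P011.E6O.H370.Tm
import Vale.Agent.P011.E6O.DatT
import Vale.Agent.P011.E6O.H68.SuRes
import Vale.Agent.P011.E6O.H69.Trip

/-!
Every point of the two lines is moved to a standard point by an element of the finite residual.
-/

namespace Vale.Agent.P011.E6O

open Vale.Agent.P011.MPQ Vale.Agent.P011.D4 Vale.Agent.P011.D4.Oct Vale.Agent.P011.E6

variable {k E : Type} [Field k] [NumberField k] [Field E] [NumberField E] [Algebra k E]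
  {ρ σ : E ≃ₐ[k] E} {lam : Eˣ} {g : Fin 3 → Eˣ} {al s : E} {a b c : kˣ}
  (H : Hyp ρ σ lam g al s a b c)

include H

/-- Every point of the line `I` is moved to a standard point by an element of `Res`. -/
theorem T {A : Submodule E (AlbL E a b c)} (hA : IsPt ρ lam A) (hI : A ≤ Iln c (ep al)) :
    ∃ n ∈ Res ρ σ lam g a b c, ∃ w : Oct a b c, Perp w ∧
      A.map (n : AlbL E a b c →ₗ[E] AlbL E a b c) = Pw al w := by
  obtain ⟨K, _, _, _, _, S, β, hS⟩ := H.exists_isDat
  exact H370.T_of two_ne_zero H.al2 H.ρal H.σal ⟨H.ρ3, H.ρlam, lam.ne_zero, H.hlam⟩ H.hdiv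
    (fun x hx => H.exists_kal hx) S hS.eqρ hS.eqs hS.eqlam hS.eqG hS.fix' hS.eqβ hS.β0 hS.T
    (fun hm hu hn _ hφ => su_Res H hm hu hn hφ)
    (fun q => aut_Res H (conjC c q) (conjE_aup q)) hA hI

/-- Every point of the opposite line is moved to a standard point by an element of `Res`. -/
theorem Tm {A : Submodule E (AlbL E a b c)} (hA : IsPt ρ lam A) (hI : A ≤ Iln c (em al)) :
    ∃ n ∈ Res ρ σ lam g a b c, ∃ w : Oct a b c, Perp w ∧
      A.map (n : AlbL E a b c →ₗ[E] AlbL E a b c) = Pm al w :=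
  Tm_of (aut_Res H (autI a b c) ai_aup) (fun _ h1 h2 => T H h1 h2) hA hI

end Vale.Agent.P011.E6O
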