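import Vale.Agent.P011.E6O.Defs2
import Vale.Agent.P011.E6O.H493.Co
import Vale.Agent.P011.E6O.H493.Semi

/-!
The points of the line `I`, as lines over the cyclic algebra.
-/

namespace Vale.Agent.P011.E6O.H370

open Vale.Agent.P011.MPQ Vale.Agent.P011.D4 Vale.Agent.P011.D4.Oct Vale.Agent.P011.E6

section coord

variable {k E : Type} [Field k] [Field E] [Algebra k E] {ρ : E ≃ₐ[k] E} {lam : Eˣ}
  {a b c : kˣ} {al : E}

/-- The element of the line `I` with given coordinates. -/
def pt (al : E) (a b c : kˣ) (s t : Fin 3 → E) : AlbL E a b c :=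
  ⟨0, 0, 0, ⟨0, mkq (up E a) (up E b) al (s 0) 0 (t 0) 0⟩,
    ⟨0, mkq (up E a) (up E b) al (s 1) 0 (t 1) 0⟩, ⟨0, mkq (up E a) (up E b) al (s 2) 0 (t 2) 0⟩⟩

/-- The first coordinates. -/
def fS (al : E) (a b c : kˣ) : AlbL E a b c →ₗ[E] (Fin 3 → E) where
  toFun x := ![ca al x.x1.snd, ca al x.x2.snd, ca al x.x3.snd]
  map_add' x y := by
    funext i
    fin_cases i <;> simp
  map_smul' t x := by
    funext i
    fin_cases i <;> simp

/-- The second coordinates. -/
def fT (al : E) (a b c : kˣ) : AlbL E a b c →ₗ[E] (Fin 3 → E) where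
  toFun x := ![cg al x.x1.snd, cg al x.x2.snd, cg al x.x3.snd]
  map_add' x y := by
    funext i
    fin_cases i <;> simp
  map_smul' t x := by
    funext i
    fin_cases i <;> simp

theorem fS_apply (x : AlbL E a b c) :
    fS al a b c x = ![ca al x.x1.snd, ca al x.x2.snd, ca al x.x3.snd] := rfl

theorem fT_apply (x : AlbL E a b c) :
    fT al a b c x = ![cg al x.x1.snd, cg al x.x2.snd, cg al x.x3.snd] := rfl

theorem ca_qmap (hal : ρ al = al) (q : Qt (up E a) (up E b)) :
    ca al (qmap ρ q) = ρ (ca al q) := by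
  simp only [ca, qmap, map_add, map_mul, hal]

theorem cg_qmap (hal : ρ al = al) (q : Qt (up E a) (up E b)) :
    cg al (qmap ρ q) = ρ (cg al q) := by
  simp only [cg, qmap, map_add, map_mul, hal]

theorem fS_ph (hal : ρ al = al) (x : AlbL E a b c) :
    fS al a b c (ph ρ lam x) = psi (ρ : E ≃+* E) lam (fS al a b c x) := by
  funext i
  fin_cases i
  · change ca al ((lam : E) • qmap ρ x.x3.snd) = (lam : E) * ρ (ca al x.x3.snd)
    rw [ca_smul, ca_qmap hal]
  · change ca al (qmap ρ x.x1.snd) = ρ (ca al x.x1.snd)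
    rw [ca_qmap hal]
  · change ca al (qmap ρ x.x2.snd) = ρ (ca al x.x2.snd)
    rw [ca_qmap hal]

theorem fT_ph (hal : ρ al = al) (x : AlbL E a b c) :
    fT al a b c (ph ρ lam x) = psi (ρ : E ≃+* E) lam (fT al a b c x) := by
  funext i
  fin_cases i
  · change cg al ((lam : E) • qmap ρ x.x3.snd) = (lam : E) * ρ (cg al x.x3.snd)
    rw [cg_smul, cg_qmap hal]
  · change cg al (qmap ρ x.x1.snd) = ρ (cg al x.x1.snd)
    rw [cg_qmap hal]
  · change cg al (qmap ρ x.x2.snd) = ρ (cg al x.x2.snd)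
    rw [cg_qmap hal]

theorem al_ne' (h : al ^ 2 = algebraMap k E a) : al ≠ 0 := by
  rintro rfl
  rw [zero_pow two_ne_zero] at h
  exact a.ne_zero ((map_eq_zero _).mp h.symm)

variable (h2 : (2 : E) ≠ 0) (hal : al ^ 2 = algebraMap k E a)
include h2 hal

theorem ep_co : ca al (ep al : Qt (up E a) (up E b)) = 1 ∧ cb al (ep al : Qt (up E a) (up E b)) = 0 ∧
    cg al (ep al : Qt (up E a) (up E b)) = 0 ∧ cd al (ep al : Qt (up E a) (up E b)) = 0 := by
  have h0 := al_ne' hal
  refine ⟨?_, ?_, ?_, ?_⟩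
  · simp only [ca, ep]
    field_simp
    norm_num
  · simp only [cb, ep]
    field_simp
    norm_num
  · simp only [cg, ep]
    ring
  · simp only [cd, ep]
    ring

theorem ep_mul (q : Qt (up E a) (up E b)) :
    ep al * q = mkq (up E a) (up E b) al (ca al q) 0 (cg al q) 0 := by
  have hal' : al ^ 2 = ((up E a : Eˣ) : E) := hal
  obtain ⟨e1, e2, e3, e4⟩ := ep_co (b := b) h2 hal
  obtain ⟨f1, f2, f3, f4⟩ := mkq_co (b := up E b) h2 hal' (ca al q) 0 (cg al q) 0
  apply ext_co h2 hal'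
  · rw [ca_mul hal', e1, e3, f1]
    ring
  · rw [cb_mul hal', e2, e4, f2]
    ring
  · rw [cg_mul hal', e1, e3, f3]
    ring
  · rw [cd_mul hal', e2, e4, f4]
    ring

theorem eq_pt {x : AlbL E a b c} (hx : x ∈ Iln c (ep al)) :
    x = pt al a b c (fS al a b c x) (fT al a b c x) := by
  have hal' : al ^ 2 = ((up E a : Eˣ) : E) := hal
  obtain ⟨q, rfl⟩ := hx
  obtain ⟨e1, e2, e3, e4⟩ := ep_co (b := b) h2 hal
  have h3 : ∀ q : Qt (up E a) (up E b),
      ep al * q = mkq (up E a) (up E b) al (ca al (ep al * q)) 0 (cg al (ep al * q)) 0 := by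
    intro q
    rw [ca_mul hal', cg_mul hal', e1, e3, ep_mul h2 hal]
    congr 1 <;> ring
  simp only [pt, fS_apply, fT_apply, Matrix.cons_val_zero, Matrix.cons_val_one, Matrix.cons_val,
    ← h3]

theorem fS_pt (s t : Fin 3 → E) : fS al a b c (pt al a b c s t) = s := by
  have hal' : al ^ 2 = ((up E a : Eˣ) : E) := hal
  funext i
  fin_cases i
  · exact (mkq_co (b := up E b) h2 hal' _ _ _ _).1
  · exact (mkq_co (b := up E b) h2 hal' _ _ _ _).1
  · exact (mkq_co (b := up E b) h2 hal' _ _ _ _).1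

theorem fT_pt (s t : Fin 3 → E) : fT al a b c (pt al a b c s t) = t := by
  have hal' : al ^ 2 = ((up E a : Eˣ) : E) := hal
  funext i
  fin_cases i
  · exact (mkq_co (b := up E b) h2 hal' _ _ _ _).2.2.1
  · exact (mkq_co (b := up E b) h2 hal' _ _ _ _).2.2.1
  · exact (mkq_co (b := up E b) h2 hal' _ _ _ _).2.2.1

end coord

section point

variable {k E : Type} [Field k] [Field E] [Algebra k E] {ρ : E ≃ₐ[k] E} {lam : Eˣ}
  {a b c : kˣ} {al : E}

theorem omap3 (h3 : ∀ x, ρ (ρ (ρ x)) = x) (x : OctL E a b c) :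
    omap ρ (omap ρ (omap ρ x)) = x := by
  simp only [omap, qmap, h3]

theorem omap_sm (t : E) (x : OctL E a b c) : omap ρ (t • x) = ρ t • omap ρ x :=
  omap_smul ρ t x

theorem sem_ph (h3 : ∀ x, ρ (ρ (ρ x)) = x) (hl : ρ lam = lam) :
    Sem (ρ : E ≃+* E) (lam : E) (ph ρ lam : AlbL E a b c → AlbL E a b c) where
  add x y := by
    have h : ∀ x y : OctL E a b c, omap ρ (x + y) = omap ρ x + omap ρ y := omap_add ρ
    apply Alb.ext
    · change _ * ρ _ = _ * ρ _ + _ * ρ _
      rw [Alb.d3_add, map_add, mul_add]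
    · change _ * ρ _ = _ * ρ _ + _ * ρ _
      rw [Alb.d1_add, map_add, mul_add]
    · change _ * ρ _ = _ * ρ _ + _ * ρ _
      rw [Alb.d2_add, map_add, mul_add]
    · change (lam : E) • omap ρ _ = (lam : E) • omap ρ _ + (lam : E) • omap ρ _
      rw [Alb.x3_add, h, smul_add]
    · exact h _ _
    · exact h _ _
  smul t x := by
    apply Alb.ext
    · change _ * ρ (t * _) = ρ t * (_ * ρ _)
      rw [map_mul, mul_left_comm]
    · change _ * ρ (t * _) = ρ t * (_ * ρ _)
      rw [map_mul, mul_left_comm]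
    · change _ * ρ (t * _) = ρ t * (_ * ρ _)
      rw [map_mul, mul_left_comm]
    · change (lam : E) • omap ρ (t • _) = ρ t • (lam : E) • omap ρ _
      rw [omap_sm, smul_comm]
    · exact omap_sm _ _
    · exact omap_sm _ _
  cube x := by
    have h4 : (((lam⁻¹ : Eˣ)) : E) * lam = 1 := Units.inv_mul lam
    have h5 : ρ (((lam⁻¹ : Eˣ)) : E) = ((lam⁻¹ : Eˣ) : E) := by
      rw [Units.val_inv_eq_inv_val, map_inv₀, hl]
    apply Alb.ext
    · change ((lam⁻¹ : Eˣ) : E) * ρ ((lam : E) * ρ ((lam : E) * ρ x.d1)) = (lam : E) * x.d1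
      rw [map_mul, map_mul, map_mul, h3, hl, hl]
      linear_combination ((lam : E) * x.d1) * h4
    · change (lam : E) * ρ (((lam⁻¹ : Eˣ) : E) * ρ ((lam : E) * ρ x.d2)) = (lam : E) * x.d2
      rw [map_mul, map_mul, map_mul, h3, hl, hl, h5]
      linear_combination ((lam : E) * x.d2) * h4
    · change (lam : E) * ρ ((lam : E) * ρ (((lam⁻¹ : Eˣ) : E) * ρ x.d3)) = (lam : E) * x.d3
      rw [map_mul, map_mul, map_mul, h3, hl, h5, h5]
      linear_combination ((lam : E) * x.d3) * h4
    · change (lam : E) • omap ρ (omap ρ (omap ρ x.x1)) = (lam : E) • x.x1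
      rw [omap3 h3]
    · change omap ρ ((lam : E) • omap ρ (omap ρ x.x2)) = (lam : E) • x.x2
      rw [omap_sm, omap3 h3, hl]
    · change omap ρ (omap ρ ((lam : E) • omap ρ x.x3)) = (lam : E) • x.x3
      rw [omap_sm, omap_sm, omap3 h3, hl, hl]

variable (h2 : (2 : E) ≠ 0) (hal : al ^ 2 = algebraMap k E a) (hρal : ρ al = al)
  (hC : Cyc (ρ : E ≃+* E) (lam : E))
include h2 hal hρal hC

/-- The points of the line `I`. -/
theorem exists_Z {A : Submodule E (AlbL E a b c)} (hA : IsPt ρ lam A) (hI : A ≤ Iln c (ep al)) :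
    ∃ Z1 Z2 : Matrix (Fin 3) (Fin 3) E, InD0 ρ lam Z1 ∧ InD0 ρ lam Z2 ∧ (Z1 ≠ 0 ∨ Z2 ≠ 0) ∧
      ∀ x, x ∈ A ↔ ∃ r : Fin 3 → E,
        x = pt al a b c (Matrix.vecMul r Z1) (Matrix.vecMul r Z2) := by
  have hS : Sem (ρ : E ≃+* E) (lam : E) (ph ρ lam : AlbL E a b c → AlbL E a b c) :=
    sem_ph hC.r3 hC.rl
  have hps0 := psi_zero (ρ := (ρ : E ≃+* E)) (lam := (lam : E))
  rcases hC.inj hS hA.dim hA.ph (fS al a b c) (fun x _ h => by rw [fS_ph hρal, h, hps0])
    with h | h
  · have hT : ∀ x ∈ A, fT al a b c x = 0 → x = 0 := by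
      intro x hx h0
      have e1 := eq_pt h2 hal (hI hx)
      have e2 := eq_pt h2 hal (hI A.zero_mem)
      rw [h x hx, h0] at e1
      rw [map_zero, map_zero] at e2
      rw [e1, e2]
    refine ⟨0, 1, ?_, ?_, Or.inr one_ne_zero, fun x => ⟨fun hx => ⟨fT al a b c x, ?_⟩, ?_⟩⟩
    · rw [InD0, Matrix.zero_mul, Matrix.map_zero _ (map_zero ρ), Matrix.mul_zero]
    · rw [InD0, Matrix.one_mul, Matrix.map_one _ (map_zero ρ) (map_one ρ), Matrix.mul_one]
    · rw [Matrix.vecMul_zero, Matrix.vecMul_one]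
      conv_lhs => rw [eq_pt h2 hal (hI hx), h x hx]
    · rintro ⟨r, rfl⟩
      rw [Matrix.vecMul_zero, Matrix.vecMul_one]
      obtain ⟨y, hy, hyr⟩ := surj_of_inj hA.dim _ hT r
      have e1 := eq_pt h2 hal (hI hy)
      rw [h y hy, hyr] at e1
      rw [← e1]
      exact hy
  · choose e he hfe using fun i => surj_of_inj hA.dim (fS al a b c) h (Pi.single i 1)
    obtain ⟨Z, hZ⟩ : ∃ Z : Matrix (Fin 3) (Fin 3) E, Z = Matrix.of fun i => fT al a b c (e i) :=
      ⟨_, rfl⟩
    have hZr : ∀ i, fT al a b c (e i) = Z i := fun i => by rw [hZ]; rfl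
    have hfT : ∀ x ∈ A, fT al a b c x = Matrix.vecMul (fS al a b c x) Z := by
      intro x hx
      have h5 : x = ∑ i, fS al a b c x i • e i := by
        have h6 : x - ∑ i, fS al a b c x i • e i = 0 := by
          apply h _ (A.sub_mem hx (A.sum_mem fun i _ => A.smul_mem _ (he i)))
          rw [map_sub, map_sum]
          funext j
          simp only [map_smul, hfe, Pi.sub_apply, Finset.sum_apply, Pi.smul_apply, smul_eq_mul,
            Pi.single_apply, mul_ite, mul_one, mul_zero, Finset.sum_ite_eq, Finset.mem_univ,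
            if_true, sub_self, Pi.zero_apply]
        exact sub_eq_zero.1 h6
      have h7 : fT al a b c x = ∑ i, fS al a b c x i • Z i := by
        conv_lhs => rw [h5, map_sum]
        exact Finset.sum_congr rfl fun i _ => by rw [map_smul, hZr]
      rw [h7]
      funext j
      rw [Finset.sum_apply]
      rfl
    have hx : ∀ x, x ∈ A ↔ ∃ r : Fin 3 → E,
        x = pt al a b c (Matrix.vecMul r 1) (Matrix.vecMul r Z) := by
      intro x
      constructor
      · intro hx
        refine ⟨fS al a b c x, ?_⟩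
        rw [Matrix.vecMul_one, ← hfT x hx]
        exact eq_pt h2 hal (hI hx)
      · rintro ⟨r, rfl⟩
        obtain ⟨y, hy, hyr⟩ := surj_of_inj hA.dim _ h r
        have e1 := eq_pt h2 hal (hI hy)
        rw [hfT y hy, hyr] at e1
        rw [Matrix.vecMul_one, ← e1]
        exact hy
    refine ⟨1, Z, ?_, ?_, Or.inl one_ne_zero, hx⟩
    · rw [InD0, Matrix.one_mul, Matrix.map_one _ (map_zero ρ) (map_one ρ), Matrix.mul_one]
    · have hrow : ∀ i, psi (ρ : E ≃+* E) (lam : E) (Z i) =
          Matrix.vecMul (psi (ρ : E ≃+* E) (lam : E) (Pi.single i 1)) Z := by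
        intro i
        rw [← hZr, ← fT_ph hρal, hfT _ (hA.ph _ (he i)), fS_ph hρal, hfe]
      have h0 : Z 1 = psi (ρ : E ≃+* E) (lam : E) (Z 0) := by
        rw [hrow]
        funext j
        simp [psi, Matrix.vecMul, dotProduct, Fin.sum_univ_three]
      have h1 : Z 2 = psi (ρ : E ≃+* E) (lam : E) (Z 1) := by
        rw [hrow]
        funext j
        simp [psi, Matrix.vecMul, dotProduct, Fin.sum_univ_three]
      have h3 : (lam : E) • Z 0 = psi (ρ : E ≃+* E) (lam : E) (Z 2) := by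
        rw [hrow]
        funext j
        simp [psi, Matrix.vecMul, dotProduct, Fin.sum_univ_three]
      have h4 : (((lam⁻¹ : Eˣ)) : E) * lam = 1 := Units.inv_mul lam
      have k0 := fun j => congrFun h0 j
      have k1 := fun j => congrFun h1 j
      have k2 := fun j => congrFun h3 j
      have k00 := k0 0
      have k01 := k0 1
      have k02 := k0 2
      have k10 := k1 0
      have k11 := k1 1
      have k12 := k1 2
      have k20 := k2 0
      have k21 := k2 1
      have k22 := k2 2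
      simp only [psi, Matrix.cons_val_zero, Matrix.cons_val_one, Matrix.cons_val, Pi.smul_apply,
        smul_eq_mul, AlgEquiv.coe_ringEquiv] at k00 k01 k02 k10 k11 k12 k20 k21 k22
      rw [InD0]
      ext i j
      fin_cases i <;> fin_cases j <;>
        simp only [um, Matrix.mul_apply, Fin.sum_univ_three, Matrix.of_apply, Matrix.cons_val',
          Matrix.cons_val_zero, Matrix.cons_val_one, Matrix.cons_val, Matrix.map_apply, mul_zero,
          zero_mul, mul_one, one_mul, add_zero, zero_add, Fin.zero_eta, Fin.mk_one,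
          Fin.reduceFinMk]
      · linear_combination (((lam⁻¹ : Eˣ)) : E) * k21 - Z 0 1 * h4
      · linear_combination (((lam⁻¹ : Eˣ)) : E) * k22 - Z 0 2 * h4
      · have := mul_left_cancel₀ lam.ne_zero k20
        rw [this, mul_comm]
      · exact k01
      · exact k02
      · linear_combination (((lam⁻¹ : Eˣ)) : E) * k00 + ρ (Z 0 2) * h4
      · exact k11
      · exact k12
      · linear_combination (((lam⁻¹ : Eˣ)) : E) * k10 + ρ (Z 1 2) * h4

end point

end Vale.Agent.P011.E6O.H370
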